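import Vale.Agent.P157.H770.Defs

open MeasureTheory ProbabilityTheory Filter Topology

namespace Vale.Agent.P157

/-- The ground state energy of the Ising perceptron: the largest value of
`(1/N) ∑ₐ f(gᵃ·x/√N)` over the points `x` of the cube `{-1,1}^N`. -/
noncomputable def maxValue {M N : ℕ} (f : ℝ → ℝ) (g : Fin M → Fin N → ℝ) : ℝ :=
  (Finset.univ : Finset (Fin N → Bool)).sup' Finset.univ_nonempty fun s =>
    1 / N * ∑ a, f ((∑ i, g a i * if s i then 1 else -1) / √(N : ℝ))

/-- For patterns with independent entries of law `κ` and every sequence of numbers `M N` of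
patterns with `M N / N → α`, the mean of the ground state energy converges to `e`, and for every
coupling `G` of the arrays of the different sizes the ground state energy converges to `e`
almost surely. -/
def MaxLimit (κ : Measure ℝ) (α : ℝ) (f : ℝ → ℝ) (e : ℝ) : Prop :=
  ∀ M : ℕ → ℕ, Tendsto (fun N => (M N : ℝ) / N) atTop (𝓝 α) →
    Tendsto (fun N => ∫ g, maxValue f g ∂(entries κ (M N) N)) atTop (𝓝 e) ∧
    ∀ (Ω : Type) [MeasurableSpace Ω] (P : Measure Ω) [IsProbabilityMeasure P]
      (G : (N : ℕ) → Ω → Fin (M N) → Fin N → ℝ), (∀ N, Measurable (G N)) →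
      (∀ N, P.map (G N) = entries κ (M N) N) →
      ∀ᵐ ω ∂P, Tendsto (fun N => maxValue f (G N ω)) atTop (𝓝 e)

end Vale.Agent.P157
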