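import Vale.Agent.P157.H234.Mono
import Vale.Agent.P157.H770.Main

/-!
# The ground state energy of the Ising perceptron: assembly
-/

set_option linter.all false

open MeasureTheory ProbabilityTheory Filter Topology

namespace Vale.Agent.P157.H234

open Vale.Agent.P157.H770 Par Sph

theorem formulas {f : ℝ → ℝ} (hf : Measurable f) {B : ℝ} (hB : ∀ x, |f x| ≤ B) {α : ℝ}
    (hα : 0 < α) :
    (∃ L : ℝ, Tendsto (meanPressure cube α f) atTop (𝓝 L) ∧
      IsGLB {y | ∃ (k : ℕ) (m q : ℕ → ℝ), Exponents k m ∧ Path k q ∧ q k < 1 ∧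
        IsLUB {y | ∃ r, Path k r ∧ y = parisi α f k m q r} y} L) ∧
    ∃ L : ℝ, Tendsto (meanPressure usphere α f) atTop (𝓝 L) ∧
      IsGLB {y | ∃ (k : ℕ) (m q : ℕ → ℝ), Exponents k m ∧ Path k q ∧ q k < 1 ∧
        y = α * patternPart f k m q + csPart k m q} L :=
  ⟨parisi_formula_all hf hB hα, usphere_formula hf hB hα⟩

theorem ground {f : ℝ → ℝ} (hf : Measurable f) {B : ℝ} (hB : ∀ x, |f x| ≤ B) {α : ℝ}
    (hα : 0 < α) :
    ∃ (L : ℝ → ℝ) (e : ℝ),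
      (∀ β : ℝ, 0 < β → Tendsto (meanPressure cube α fun x => β * f x) atTop (𝓝 (L β)) ∧
        IsGLB {y | ∃ (k : ℕ) (m q : ℕ → ℝ), Exponents k m ∧ Path k q ∧ q k < 1 ∧
          IsLUB {y | ∃ r, Path k r ∧ y = parisi α (fun x => β * f x) k m q r} y} (L β)) ∧
      IsLUB {y | ∃ β, 0 < β ∧ y = L β / β} e ∧
      IsGLB {y | ∃ β, 0 < β ∧ y = (L β + Real.log 2) / β} e ∧
      MaxLimit (gaussianReal 0 1) α f e ∧
      ((∀ᵐ x ∂(volume : Measure ℝ), ContinuousAt f x) → ∀ ν : Measure ℝ, IsProbabilityMeasure ν →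
        Integrable (fun t => t ^ 2) ν → ∫ t, t ∂ν = 0 → ∫ t, t ^ 2 ∂ν = 1 →
        MaxLimit ν α f e) := by
  have hb : ∀ β : ℝ, ∀ x, |β * f x| ≤ |β| * B := fun β x => by
    rw [abs_mul]; exact mul_le_mul_of_nonneg_left (hB x) (abs_nonneg _)
  have h := fun β : ℝ => cube_part (hf.const_mul β) (hb β) hα
  choose L h1 h2 h3 h4 using h
  obtain ⟨e, he1, he2⟩ := exists_e (L := L) fun β γ hβ hγ => cross hf hB h1 hβ hγ
  have l1 : ∀ β, 0 < β → L β / β ≤ e := fun β hβ => he1.1 ⟨β, hβ, rfl⟩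
  have l2 : ∀ β, 0 < β → e ≤ (L β + Real.log 2) / β := fun β hβ => he2.1 ⟨β, hβ, rfl⟩
  refine ⟨L, e, fun β _ => ⟨h1 β, h2 β⟩, he1, he2,
    maxLimit_of hf hB _ l1 l2 fun β _ => h3 β, fun hc ν hν i m1 m2 =>
    maxLimit_of hf hB ν l1 l2 fun β _ => h4 β ?_ ν hν i m1 m2⟩
  filter_upwards [hc] with x hx
  exact hx.const_mul β

theorem storage {C : Set ℝ} (hC : MeasurableSet C) :
    ∃ a : ENNReal, ∀ α : ℝ, 0 < α →
      (ENNReal.ofReal α < a → MaxLimit (gaussianReal 0 1) α (C.indicator fun _ => 1) α) ∧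
      (a < ENNReal.ofReal α →
        ∃ e < α, MaxLimit (gaussianReal 0 1) α (C.indicator fun _ => 1) e) := by
  refine threshold _ hC fun α hα => ?_
  have hb : ∀ x, |C.indicator (fun _ => (1 : ℝ)) x| ≤ 1 := by
    intro x
    by_cases h : x ∈ C
    · rw [Set.indicator_of_mem h]; simp
    · rw [Set.indicator_of_notMem h]; simp
  obtain ⟨L, e, -, -, -, h, -⟩ := ground (measurable_const.indicator hC) hb hα
  exact ⟨e, h⟩

end Vale.Agent.P157.H234
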