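import Vale.Agent.P157.H234.Defs
import Vale.Agent.P157.H770.Conc
import Vale.Agent.P157.Bdl.B4

/-!
# The ground state energy: comparison with the pressure, the limit, monotonicity in the density
-/

set_option linter.all false

open MeasureTheory ProbabilityTheory Filter Topology

namespace Vale.Agent.P157.H234

open Vale.Agent.P157.H770

variable {M N : ℕ}

theorem le_maxValue (f : ℝ → ℝ) (g : Fin M → Fin N → ℝ) (s : Fin N → Bool) :
    1 / N * HH f g (spin s) ≤ maxValue f g :=
  Finset.le_sup' (f := fun s : Fin N → Bool =>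
    1 / (N : ℝ) * ∑ a, f ((∑ i, g a i * if s i then 1 else -1) / √(N : ℝ))) (Finset.mem_univ s)

theorem exists_maxValue (f : ℝ → ℝ) (g : Fin M → Fin N → ℝ) :
    ∃ s : Fin N → Bool, maxValue f g = 1 / N * HH f g (spin s) := by
  obtain ⟨s, -, hs⟩ := Finset.exists_mem_eq_sup' (Finset.univ_nonempty)
    (fun s : Fin N → Bool =>
    1 / (N : ℝ) * ∑ a, f ((∑ i, g a i * if s i then 1 else -1) / √(N : ℝ)))
  exact ⟨s, hs⟩

theorem HH_mul (β : ℝ) (f : ℝ → ℝ) (g : Fin M → Fin N → ℝ) (x : Fin N → ℝ) :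
    HH (fun y => β * f y) g x = β * HH f g x := by
  unfold HH
  rw [Finset.mul_sum]

/-- the pressure from below by the maximum -/
theorem pressure_le_max {f : ℝ → ℝ} {β : ℝ} (hβ : 0 < β) (hN : 0 < N)
    (g : Fin M → Fin N → ℝ) :
    pressure (cube N) (fun y => β * f y) g ≤ β * maxValue f g := by
  have hN' : (0 : ℝ) < N := by exact_mod_cast hN
  rw [pressure_eq, integral_cube]
  have h1 : ∀ s : Fin N → Bool, Real.exp (HH (fun y => β * f y) g (spin s)) ≤
      Real.exp (N * (β * maxValue f g)) := by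
    intro s
    rw [HH_mul]
    refine Real.exp_le_exp.2 ?_
    have h := le_maxValue f g s
    have h2 : HH f g (spin s) ≤ N * maxValue f g := by
      have := mul_le_mul_of_nonneg_left h hN'.le
      rwa [← mul_assoc, mul_one_div, div_self hN'.ne', one_mul] at this
    calc β * HH f g (spin s) ≤ β * (N * maxValue f g) := mul_le_mul_of_nonneg_left h2 hβ.le
      _ = _ := by ring
  have h3 : (1 / 2 : ℝ) ^ N * ∑ s : Fin N → Bool, Real.exp (HH (fun y => β * f y) g (spin s)) ≤
      Real.exp (N * (β * maxValue f g)) := by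
    refine (mul_le_mul_of_nonneg_left (Finset.sum_le_sum fun s _ => h1 s) (by positivity)).trans ?_
    rw [Finset.sum_const, Finset.card_univ, Fintype.card_fun, Fintype.card_bool, Fintype.card_fin,
      nsmul_eq_mul, ← mul_assoc]
    have h6 : (1 / 2 : ℝ) ^ N * ((2 ^ N : ℕ) : ℝ) = 1 := by
      push_cast
      rw [← mul_pow]; norm_num
    rw [h6, one_mul]
  have h4 : 0 < (1 / 2 : ℝ) ^ N * ∑ s : Fin N → Bool,
      Real.exp (HH (fun y => β * f y) g (spin s)) := by
    have : 0 < ∑ s : Fin N → Bool, Real.exp (HH (fun y => β * f y) g (spin s)) :=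
      Finset.sum_pos (fun s _ => Real.exp_pos _) Finset.univ_nonempty
    positivity
  have h5 := Real.log_le_log h4 h3
  rw [Real.log_exp] at h5
  calc _ ≤ 1 / (N : ℝ) * (N * (β * maxValue f g)) :=
        mul_le_mul_of_nonneg_left h5 (by positivity)
    _ = _ := by field_simp

/-- the maximum from above by the pressure -/
theorem max_le_pressure {f : ℝ → ℝ} {β : ℝ} (hN : 0 < N)
    (g : Fin M → Fin N → ℝ) :
    β * maxValue f g ≤ pressure (cube N) (fun y => β * f y) g + Real.log 2 := by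
  have hN' : (0 : ℝ) < N := by exact_mod_cast hN
  rw [pressure_eq, integral_cube]
  obtain ⟨s, hs⟩ := exists_maxValue f g
  have h1 : (1 / 2 : ℝ) ^ N * Real.exp (N * (β * maxValue f g)) ≤
      (1 / 2 : ℝ) ^ N * ∑ s : Fin N → Bool, Real.exp (HH (fun y => β * f y) g (spin s)) := by
    refine mul_le_mul_of_nonneg_left ?_ (by positivity)
    have h2 : Real.exp (N * (β * maxValue f g)) = Real.exp (HH (fun y => β * f y) g (spin s)) := by
      rw [HH_mul, hs]
      congr 1
      field_simp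
    rw [h2]
    exact Finset.single_le_sum (f := fun s : Fin N → Bool =>
      Real.exp (HH (fun y => β * f y) g (spin s))) (fun s _ => (Real.exp_pos _).le)
      (Finset.mem_univ s)
  have h4 : 0 < (1 / 2 : ℝ) ^ N * Real.exp (N * (β * maxValue f g)) := by positivity
  have h5 := Real.log_le_log h4 h1
  rw [Real.log_mul (by positivity) (Real.exp_pos _).ne', Real.log_exp, Real.log_pow] at h5
  have h6 : Real.log (1 / 2 : ℝ) = - Real.log 2 := by
    rw [one_div, Real.log_inv]
  rw [h6] at h5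
  have h7 := mul_le_mul_of_nonneg_left h5 (show (0 : ℝ) ≤ 1 / N by positivity)
  have h8 : 1 / (N : ℝ) * (N * -Real.log 2 + N * (β * maxValue f g)) =
      -Real.log 2 + β * maxValue f g := by field_simp
  rw [h8] at h7
  linarith

theorem abs_maxValue_le {f : ℝ → ℝ} {B : ℝ} (hB : ∀ x, |f x| ≤ B) (g : Fin M → Fin N → ℝ) :
    |maxValue f g| ≤ M * B / N := by
  obtain ⟨s, hs⟩ := exists_maxValue f g
  rw [hs, abs_mul, abs_of_nonneg (show (0 : ℝ) ≤ 1 / N by positivity)]
  calc _ ≤ 1 / (N : ℝ) * (M * B) :=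
        mul_le_mul_of_nonneg_left (abs_HH_le hB g _) (by positivity)
    _ = _ := by ring

theorem measurable_maxValue {f : ℝ → ℝ} (hf : Measurable f) :
    Measurable fun g : Fin M → Fin N → ℝ => maxValue f g := by
  unfold maxValue
  have h := Finset.measurable_sup' (s := (Finset.univ : Finset (Fin N → Bool)))
    Finset.univ_nonempty (f := fun s (g : Fin M → Fin N → ℝ) =>
      1 / (N : ℝ) * ∑ a, f ((∑ i, g a i * if s i then 1 else -1) / √(N : ℝ))) ?_
  · convert h using 1
    funext g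
    rw [Finset.sup'_apply]
  · intro s _
    refine Measurable.const_mul ?_ _
    exact Finset.measurable_sum _ fun a _ => hf.comp (by fun_prop)

theorem integrable_maxValue (κ : Measure ℝ) [IsProbabilityMeasure κ] {f : ℝ → ℝ}
    (hf : Measurable f) {B : ℝ} (hB : ∀ x, |f x| ≤ B) :
    Integrable (fun g : Fin M → Fin N → ℝ => maxValue f g) (entries κ M N) :=
  Integrable.of_bound (measurable_maxValue hf).aestronglyMeasurable (M * B / N)
    (ae_of_all _ fun g => by rw [Real.norm_eq_abs]; exact abs_maxValue_le hB g)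

/-- squeezing -/
theorem squeeze {a : ℕ → ℝ} {L : ℝ → ℝ} {e : ℝ}
    (h1 : ∀ β, 0 < β → L β / β ≤ e) (h2 : ∀ β, 0 < β → e ≤ (L β + Real.log 2) / β)
    (h : ∀ n : ℕ, ∃ p : ℕ → ℝ, Tendsto p atTop (𝓝 (L (n + 1))) ∧
      ∀ᶠ N in atTop, p N ≤ (n + 1) * a N ∧ (n + 1) * a N ≤ p N + Real.log 2) :
    Tendsto a atTop (𝓝 e) := by
  rw [Metric.tendsto_atTop]
  intro ε hε
  have hl2 : 0 < Real.log 2 := Real.log_pos (by norm_num)
  obtain ⟨n, hn⟩ := exists_nat_gt (2 * Real.log 2 / ε)
  obtain ⟨p, hp, hpa⟩ := h n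
  have hn1 : (0 : ℝ) < n + 1 := by positivity
  have hn2 : 2 * Real.log 2 < (n + 1) * ε := by
    rw [div_lt_iff₀ hε] at hn
    nlinarith
  have hp' := (Metric.tendsto_atTop.1 hp) (ε * (n + 1) / 2) (by positivity)
  obtain ⟨N1, hN1⟩ := hp'
  obtain ⟨N2, hN2⟩ := eventually_atTop.1 hpa
  refine ⟨max N1 N2, fun N hN => ?_⟩
  have hd := hN1 N ((le_max_left _ _).trans hN)
  obtain ⟨ha, hb⟩ := hN2 N ((le_max_right _ _).trans hN)
  rw [Real.dist_eq, abs_lt] at hd
  have e1 := h1 (n + 1) hn1
  have e2 := h2 (n + 1) hn1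
  rw [div_le_iff₀ hn1] at e1
  rw [le_div_iff₀ hn1] at e2
  rw [Real.dist_eq, abs_lt]
  constructor
  · have : (n + 1) * (-ε) < (n + 1) * (a N - e) := by nlinarith
    exact lt_of_mul_lt_mul_left this hn1.le
  · have : (n + 1) * (a N - e) < (n + 1) * ε := by nlinarith
    exact lt_of_mul_lt_mul_left this hn1.le

/-- limits of the pressures at all inverse temperatures give the ground state energy -/
theorem maxLimit_of {f : ℝ → ℝ} (hf : Measurable f) {B : ℝ} (hB : ∀ x, |f x| ≤ B) {α : ℝ}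
    {L : ℝ → ℝ} {e : ℝ} (κ : Measure ℝ) [IsProbabilityMeasure κ]
    (h1 : ∀ β, 0 < β → L β / β ≤ e) (h2 : ∀ β, 0 < β → e ≤ (L β + Real.log 2) / β)
    (hL : ∀ β, 0 < β → PressureLimit cube κ α (fun y => β * f y) (L β)) :
    MaxLimit κ α f e := by
  intro M hM
  have hB0 : 0 ≤ B := (abs_nonneg _).trans (hB 0)
  constructor
  · refine squeeze h1 h2 fun n => ⟨_, (hL (n + 1) (by positivity) M hM).1, ?_⟩
    filter_upwards [eventually_gt_atTop 0] with N hN
    have hn1 : (0 : ℝ) < n + 1 := by positivity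
    have hfn : Measurable fun y => ((n : ℝ) + 1) * f y := hf.const_mul _
    have hBn : ∀ x, |((n : ℝ) + 1) * f x| ≤ (n + 1) * B := fun x => by
      rw [abs_mul, abs_of_pos hn1]
      exact mul_le_mul_of_nonneg_left (hB x) hn1.le
    have i1 := integrable_pressure (M := M N) (cube N) κ hfn hBn
    have i2 := integrable_maxValue (M := M N) (N := N) κ hf hB
    constructor
    · rw [← integral_const_mul]
      exact integral_mono i1 (i2.const_mul _) fun g => pressure_le_max hn1 hN g
    · rw [← integral_const_mul]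
      have : ∫ g, pressure (cube N) (fun y => ((n : ℝ) + 1) * f y) g ∂(entries κ (M N) N) +
          Real.log 2 = ∫ g, (pressure (cube N) (fun y => ((n : ℝ) + 1) * f y) g + Real.log 2)
            ∂(entries κ (M N) N) := by
        rw [integral_add i1 (integrable_const _)]
        simp
      rw [this]
      exact integral_mono (i2.const_mul _) (i1.add (integrable_const _))
        fun g => max_le_pressure hN g
  · intro Ω _ P _ G hG hGl
    have h : ∀ n : ℕ, ∀ᵐ ω ∂P, Tendsto
        (fun N => pressure (cube N) (fun y => ((n : ℝ) + 1) * f y) (G N ω)) atTop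
          (𝓝 (L (n + 1))) := fun n =>
      (hL (n + 1) (by positivity) M hM).2 Ω P G hG hGl
    filter_upwards [ae_all_iff.2 h] with ω hω
    refine squeeze h1 h2 fun n => ⟨_, hω n, ?_⟩
    filter_upwards [eventually_gt_atTop 0] with N hN
    exact ⟨pressure_le_max (by positivity) hN _, max_le_pressure hN _⟩

/-- two inverse temperatures -/
theorem cross {f : ℝ → ℝ} (hf : Measurable f) {B : ℝ} (hB : ∀ x, |f x| ≤ B) {α : ℝ}
    {L : ℝ → ℝ} (hL : ∀ β, Tendsto (meanPressure cube α fun y => β * f y) atTop (𝓝 (L β)))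
    {β γ : ℝ} (hβ : 0 < β) (hγ : 0 < γ) : L β / β ≤ (L γ + Real.log 2) / γ := by
  have hpat : ∀ M N, patterns M N = entries (gaussianReal 0 1) M N := fun _ _ => rfl
  have hb : ∀ δ : ℝ, ∀ x, |δ * f x| ≤ |δ| * B := fun δ x => by
    rw [abs_mul]; exact mul_le_mul_of_nonneg_left (hB x) (abs_nonneg _)
  refine le_of_tendsto_of_tendsto ((hL β).div_const β)
    (((hL γ).add_const (Real.log 2)).div_const γ) ?_
  filter_upwards [eventually_gt_atTop 0] with N hN
  unfold meanPressure
  rw [hpat]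
  have i1 := integrable_pressure (M := ⌊α * N⌋₊) (cube N) (gaussianReal 0 1)
    (hf.const_mul β) (hb β)
  have i2 := integrable_pressure (M := ⌊α * N⌋₊) (cube N) (gaussianReal 0 1)
    (hf.const_mul γ) (hb γ)
  have i3 := integrable_maxValue (M := ⌊α * N⌋₊) (N := N) (gaussianReal 0 1) hf hB
  have a1 : ∫ g, pressure (cube N) (fun y => β * f y) g
      ∂(entries (gaussianReal 0 1) ⌊α * N⌋₊ N) ≤
      β * ∫ g, maxValue f g ∂(entries (gaussianReal 0 1) ⌊α * N⌋₊ N) := by
    rw [← integral_const_mul]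
    exact integral_mono i1 (i3.const_mul _) fun g => pressure_le_max hβ hN g
  have a2 : γ * ∫ g, maxValue f g ∂(entries (gaussianReal 0 1) ⌊α * N⌋₊ N) ≤
      ∫ g, pressure (cube N) (fun y => γ * f y) g
        ∂(entries (gaussianReal 0 1) ⌊α * N⌋₊ N) + Real.log 2 := by
    rw [← integral_const_mul]
    have : ∫ g, pressure (cube N) (fun y => γ * f y) g
        ∂(entries (gaussianReal 0 1) ⌊α * N⌋₊ N) + Real.log 2 =
        ∫ g, (pressure (cube N) (fun y => γ * f y) g + Real.log 2)
          ∂(entries (gaussianReal 0 1) ⌊α * N⌋₊ N) := by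
      rw [integral_add i2 (integrable_const _)]
      simp
    rw [this]
    exact integral_mono (i3.const_mul _) (i2.add (integrable_const _))
      fun g => max_le_pressure hN g
  calc _ ≤ _ := (div_le_iff₀ hβ).2 (a1.trans (le_of_eq (mul_comm _ _)))
    _ ≤ _ := (le_div_iff₀ hγ).2 ((le_of_eq (mul_comm _ _)).trans a2)

/-- existence of the zero-temperature limit -/
theorem exists_e {L : ℝ → ℝ}
    (h : ∀ β γ, 0 < β → 0 < γ → L β / β ≤ (L γ + Real.log 2) / γ) :
    ∃ e, IsLUB {y | ∃ β, 0 < β ∧ y = L β / β} e ∧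
      IsGLB {y | ∃ β, 0 < β ∧ y = (L β + Real.log 2) / β} e := by
  have hl2 : 0 < Real.log 2 := Real.log_pos (by norm_num)
  have hne : {y | ∃ β, 0 < β ∧ y = L β / β}.Nonempty := ⟨_, 1, one_pos, rfl⟩
  have hbd : BddAbove {y | ∃ β, 0 < β ∧ y = L β / β} := by
    refine ⟨(L 1 + Real.log 2) / 1, ?_⟩
    rintro _ ⟨β, hβ, rfl⟩
    exact h β 1 hβ one_pos
  refine ⟨_, isLUB_csSup hne hbd, ?_, ?_⟩
  · rintro _ ⟨γ, hγ, rfl⟩
    refine csSup_le hne ?_
    rintro _ ⟨β, hβ, rfl⟩
    exact h β γ hβ hγ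
  · intro b hb
    refine le_of_forall_pos_le_add fun ε hε => ?_
    have hβ : 0 < Real.log 2 / ε := by positivity
    have h1 := hb ⟨_, hβ, rfl⟩
    have h2 := le_csSup hbd ⟨_, hβ, rfl⟩
    have h3 : (L (Real.log 2 / ε) + Real.log 2) / (Real.log 2 / ε) =
        L (Real.log 2 / ε) / (Real.log 2 / ε) + ε := by
      field_simp
    rw [h3] at h1
    linarith

end Vale.Agent.P157.H234
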