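import Vale.Agent.P157.H234.Max

/-!
# Monotonicity of the ground state energy per pattern; the threshold of approximate storage
-/

set_option linter.all false

open MeasureTheory ProbabilityTheory Filter Topology

namespace Vale.Agent.P157.H234

open Vale.Agent.P157.H770

variable {M N : ℕ}

/-- leaving out one pattern in all possible ways -/
theorem leave_one_out {f : ℝ → ℝ} (g : Fin (M + 1) → Fin N → ℝ) :
    M * maxValue f g ≤ ∑ a : Fin (M + 1), maxValue f fun j => g (a.succAbove j) := by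
  obtain ⟨s, hs⟩ := exists_maxValue f g
  have h1 : ∀ a : Fin (M + 1), HH f g (spin s) - f ((∑ i, g a i * spin s i) / √(N : ℝ)) =
      HH f (fun j => g (a.succAbove j)) (spin s) := by
    intro a
    unfold HH
    rw [Fin.sum_univ_succAbove _ a]
    ring
  have h2 : ∑ a : Fin (M + 1), HH f (fun j => g (a.succAbove j)) (spin s) =
      M * HH f g (spin s) := by
    rw [← Finset.sum_congr rfl fun a _ => h1 a, Finset.sum_sub_distrib, Finset.sum_const,
      Finset.card_univ, Fintype.card_fin, nsmul_eq_mul]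
    push_cast
    unfold HH
    ring
  calc (M : ℝ) * maxValue f g
      = ∑ a : Fin (M + 1), 1 / (N : ℝ) * HH f (fun j => g (a.succAbove j)) (spin s) := by
        rw [← Finset.mul_sum, h2, hs]; ring
    _ ≤ _ := Finset.sum_le_sum fun a _ => le_maxValue f _ s

theorem integral_leave (κ : Measure ℝ) [IsProbabilityMeasure κ] {f : ℝ → ℝ} (hf : Measurable f)
    (a : Fin (M + 1)) :
    ∫ g, maxValue f (fun j => g (a.succAbove j)) ∂(entries κ (M + 1) N) =
      ∫ g, maxValue f g ∂(entries κ M N) := by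
  have h1 := measurePreserving_piFinSuccAbove
    (fun _ : Fin (M + 1) => (Measure.pi fun _ : Fin N => κ)) a
  have h2 := (measurePreserving_snd (μ := (Measure.pi fun _ : Fin N => κ))
    (ν := Measure.pi fun _ : Fin M => (Measure.pi fun _ : Fin N => κ))).comp h1
  have h3 : Measure.map (fun (g : Fin (M + 1) → Fin N → ℝ) (j : Fin M) => g (a.succAbove j))
      (entries κ (M + 1) N) = entries κ M N := h2.map_eq
  rw [← h3, integral_map]
  · exact h2.measurable.aemeasurable
  · exact (measurable_maxValue hf).aestronglyMeasurable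

/-- mean ground state energy -/
noncomputable def EM (κ : Measure ℝ) (f : ℝ → ℝ) (N M : ℕ) : ℝ :=
  ∫ g, maxValue f g ∂(entries κ M N)

theorem EM_succ (κ : Measure ℝ) [IsProbabilityMeasure κ] {f : ℝ → ℝ} (hf : Measurable f)
    {B : ℝ} (hB : ∀ x, |f x| ≤ B) (N M : ℕ) :
    M * EM κ f N (M + 1) ≤ (M + 1) * EM κ f N M := by
  unfold EM
  rw [← integral_const_mul]
  have i1 : ∀ a : Fin (M + 1), Integrable
      (fun g : Fin (M + 1) → Fin N → ℝ => maxValue f (fun j => g (a.succAbove j)))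
      (entries κ (M + 1) N) := fun a =>
    Integrable.of_bound ((measurable_maxValue hf).comp
      (measurable_pi_iff.2 fun j => measurable_pi_apply _)).aestronglyMeasurable (M * B / N)
      (ae_of_all _ fun g => by rw [Real.norm_eq_abs]; exact abs_maxValue_le hB _)
  calc ∫ g, (M : ℝ) * maxValue f g ∂(entries κ (M + 1) N)
      ≤ ∫ g, ∑ a : Fin (M + 1), maxValue f (fun j => g (a.succAbove j))
          ∂(entries κ (M + 1) N) :=
        integral_mono ((integrable_maxValue κ hf hB).const_mul _)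
          (integrable_finset_sum _ fun a _ => i1 a) fun g => leave_one_out g
    _ = ∑ a : Fin (M + 1), ∫ g, maxValue f (fun j => g (a.succAbove j))
          ∂(entries κ (M + 1) N) := integral_finset_sum _ fun a _ => i1 a
    _ = ∑ a : Fin (M + 1), ∫ g, maxValue f g ∂(entries κ M N) :=
        Finset.sum_congr rfl fun a _ => integral_leave κ hf a
    _ = _ := by
        rw [Finset.sum_const, Finset.card_univ, Fintype.card_fin, nsmul_eq_mul]
        push_cast
        ring

theorem EM_mono (κ : Measure ℝ) [IsProbabilityMeasure κ] {f : ℝ → ℝ} (hf : Measurable f)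
    {B : ℝ} (hB : ∀ x, |f x| ≤ B) (N : ℕ) {M M' : ℕ} (hM : 0 < M) (h : M ≤ M') :
    M * EM κ f N M' ≤ M' * EM κ f N M := by
  induction M', h using Nat.le_induction with
  | base => exact le_rfl
  | succ K hK ih =>
    have hK0 : (0 : ℝ) < K := by exact_mod_cast hM.trans_le hK
    have h1 := EM_succ κ hf hB N K
    have h2 : (K : ℝ) * (M * EM κ f N (K + 1)) ≤ K * ((K + 1 : ℕ) * EM κ f N M) := by
      push_cast
      calc (K : ℝ) * (M * EM κ f N (K + 1)) = M * (K * EM κ f N (K + 1)) := by ring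
        _ ≤ M * ((K + 1) * EM κ f N K) := mul_le_mul_of_nonneg_left h1 (Nat.cast_nonneg M)
        _ = (K + 1) * (M * EM κ f N K) := by ring
        _ ≤ (K + 1) * (K * EM κ f N M) := mul_le_mul_of_nonneg_left ih (by positivity)
        _ = _ := by ring
    exact le_of_mul_le_mul_left h2 hK0

/-- the limits at two densities -/
theorem e_mono {κ : Measure ℝ} [IsProbabilityMeasure κ] {f : ℝ → ℝ} (hf : Measurable f)
    {B : ℝ} (hB : ∀ x, |f x| ≤ B) {α α' e e' : ℝ} (hα : 0 < α) (h : α ≤ α')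
    (he : MaxLimit κ α f e) (he' : MaxLimit κ α' f e') : α * e' ≤ α' * e := by
  have t1 := tendsto_nat_floor_mul_div_atTop (R := ℝ) hα.le
  have t1' := tendsto_nat_floor_mul_div_atTop (R := ℝ) (hα.le.trans h)
  have t2 : Tendsto (fun N : ℕ => (⌊α * N⌋₊ : ℝ) / N) atTop (𝓝 α) :=
    t1.comp tendsto_natCast_atTop_atTop
  have t2' : Tendsto (fun N : ℕ => (⌊α' * N⌋₊ : ℝ) / N) atTop (𝓝 α') :=
    t1'.comp tendsto_natCast_atTop_atTop
  have s1 := (he (fun N => ⌊α * N⌋₊) t2).1
  have s2 := (he' (fun N => ⌊α' * N⌋₊) t2').1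
  refine le_of_tendsto_of_tendsto (t2.mul s2) (t2'.mul s1) ?_
  have hev : ∀ᶠ N : ℕ in atTop, 1 / α ≤ (N : ℝ) :=
    tendsto_natCast_atTop_atTop.eventually_ge_atTop _
  filter_upwards [eventually_gt_atTop 0, hev] with N hN hN1
  have hM : 0 < ⌊α * N⌋₊ := by
    refine Nat.floor_pos.2 ?_
    rw [div_le_iff₀ hα] at hN1
    linarith
  have hle : ⌊α * N⌋₊ ≤ ⌊α' * N⌋₊ :=
    Nat.floor_le_floor (mul_le_mul_of_nonneg_right h (Nat.cast_nonneg N))
  have h3 := EM_mono κ hf hB N hM hle
  have h4 : (0 : ℝ) ≤ 1 / N := by positivity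
  have h5 := mul_le_mul_of_nonneg_left h3 h4
  unfold EM at h5
  calc _ = 1 / (N : ℝ) * ((⌊α * N⌋₊ : ℝ) *
        ∫ g, maxValue f g ∂(entries κ ⌊α' * N⌋₊ N)) := by ring
    _ ≤ _ := h5
    _ = _ := by ring

theorem MaxLimit.unique {κ : Measure ℝ} {f : ℝ → ℝ} {α e e' : ℝ} (hα : 0 ≤ α)
    (he : MaxLimit κ α f e) (he' : MaxLimit κ α f e') : e = e' := by
  have t1 := tendsto_nat_floor_mul_div_atTop (R := ℝ) hα
  have t2 : Tendsto (fun N : ℕ => (⌊α * N⌋₊ : ℝ) / N) atTop (𝓝 α) :=
    t1.comp tendsto_natCast_atTop_atTop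
  exact tendsto_nhds_unique (he _ t2).1 (he' _ t2).1

/-- the number of satisfied constraints is at most the number of constraints -/
theorem e_le {κ : Measure ℝ} [IsProbabilityMeasure κ] {C : Set ℝ} (hC : MeasurableSet C)
    {α e : ℝ} (hα : 0 ≤ α) (he : MaxLimit κ α (C.indicator fun _ => 1) e) : e ≤ α := by
  have t1 := tendsto_nat_floor_mul_div_atTop (R := ℝ) hα
  have t2 : Tendsto (fun N : ℕ => (⌊α * N⌋₊ : ℝ) / N) atTop (𝓝 α) :=
    t1.comp tendsto_natCast_atTop_atTop
  refine le_of_tendsto_of_tendsto' (he _ t2).1 t2 fun N => ?_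
  have hb : ∀ x, |C.indicator (fun _ => (1 : ℝ)) x| ≤ 1 := by
    intro x
    by_cases h : x ∈ C
    · rw [Set.indicator_of_mem h]; simp
    · rw [Set.indicator_of_notMem h]; simp
  have hm : Measurable (C.indicator fun _ => (1 : ℝ)) := measurable_const.indicator hC
  calc ∫ g, maxValue (C.indicator fun _ => 1) g ∂(entries κ ⌊α * N⌋₊ N)
      ≤ ∫ g, (⌊α * N⌋₊ : ℝ) / N ∂(entries κ ⌊α * N⌋₊ N) := by
        refine integral_mono (integrable_maxValue κ hm hb) (integrable_const _) fun g => ?_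
        have := (abs_le.1 (abs_maxValue_le (N := N) hb g)).2
        simpa using this
    _ = _ := by simp

/-- the threshold of approximate storage -/
theorem threshold (κ : Measure ℝ) [IsProbabilityMeasure κ] {C : Set ℝ} (hC : MeasurableSet C)
    (hex : ∀ α : ℝ, 0 < α → ∃ e, MaxLimit κ α (C.indicator fun _ => 1) e) :
    ∃ a : ENNReal, ∀ α : ℝ, 0 < α →
      (ENNReal.ofReal α < a → MaxLimit κ α (C.indicator fun _ => 1) α) ∧
      (a < ENNReal.ofReal α → ∃ e < α, MaxLimit κ α (C.indicator fun _ => 1) e) := by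
  have hb : ∀ x, |C.indicator (fun _ => (1 : ℝ)) x| ≤ 1 := by
    intro x
    by_cases h : x ∈ C
    · rw [Set.indicator_of_mem h]; simp
    · rw [Set.indicator_of_notMem h]; simp
  have hm : Measurable (C.indicator fun _ => (1 : ℝ)) := measurable_const.indicator hC
  refine ⟨⨆ α ∈ {α : ℝ | 0 < α ∧ MaxLimit κ α (C.indicator fun _ => 1) α}, ENNReal.ofReal α,
    fun α hα => ⟨fun h => ?_, fun h => ?_⟩⟩
  · obtain ⟨α', hα'⟩ := lt_iSup_iff.1 h
    obtain ⟨⟨h1, h2⟩, h3⟩ := lt_iSup_iff.1 hα'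
    have h4 : α < α' := (ENNReal.ofReal_lt_ofReal_iff h1).1 h3
    obtain ⟨e, he⟩ := hex α hα
    have h5 := e_mono hm hb hα h4.le he h2
    have h6 := e_le hC hα.le he
    have h7 : α ≤ e := by
      have : α' * α ≤ α' * e := by linarith
      exact le_of_mul_le_mul_left this h1
    have h8 : e = α := le_antisymm h6 h7
    rwa [h8] at he
  · obtain ⟨e, he⟩ := hex α hα
    refine ⟨e, lt_of_le_of_ne (e_le hC hα.le he) ?_, he⟩
    rintro rfl
    have : ENNReal.ofReal e ≤ ⨆ α ∈ {α : ℝ | 0 < α ∧ MaxLimit κ α (C.indicator fun _ => 1) α},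
        ENNReal.ofReal α := le_iSup₂_of_le e ⟨hα, he⟩ le_rfl
    exact absurd h (not_lt.2 this)

end Vale.Agent.P157.H234
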